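import Vale.Agent.P232.Gap.AxisData.D1
import Vale.Agent.P232.Gap.AxisData.D2
import Vale.Agent.P232.Gap.AxisData.D3
import Vale.Agent.P232.Gap.AxisData.D4

/-! # P232: the certificate tree of the axes -/

namespace Vale.Agent.P232.Gap.AxisData

def axisTreeLLRRLLRRRLR : ATree := (.cutA 6150000 axisTreeLLRRLLRRRLRL axisTreeLLRRLLRRRLRR)

def axisTreeLLRRLLRRRL : ATree := (.cutA 6100000 axisTreeLLRRLLRRRLL axisTreeLLRRLLRRRLR)

def axisTreeLLRRLLRRR : ATree := (.cutA 6200000 axisTreeLLRRLLRRRL axisTreeLLRRLLRRRR)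

def axisTreeLLRRLLRR : ATree := (.cutF 2950 axisTreeLLRRLLRRL axisTreeLLRRLLRRR)

def axisTreeLLRRLLR : ATree := (.cutA 6000000 axisTreeLLRRLLRL axisTreeLLRRLLRR)

def axisTreeLLRRLL : ATree := (.cutA 5600000 axisTreeLLRRLLL axisTreeLLRRLLR)

def axisTreeLLRRL : ATree := (.cutA 6400000 axisTreeLLRRLL axisTreeLLRRLR)

def axisTreeLLRR : ATree := (.cutA 8000000 axisTreeLLRRL axisTreeLLRRR)

def axisTreeLLR : ATree := (.cutA 4800000 axisTreeLLRL axisTreeLLRR)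

def axisTreeLL : ATree := (.cutV 3159999 axisTreeLLL axisTreeLLR)

def axisTreeL : ATree := (.cutV 3183210 axisTreeLL axisTreeLR)

def axisTreeRRLLLRLLR : ATree := (.cutA 5400000 axisTreeRRLLLRLLRL axisTreeRRLLLRLLRR)

def axisTreeRRLLLRLL : ATree := (.cutA 5200000 axisTreeRRLLLRLLL axisTreeRRLLLRLLR)

def axisTreeRRLLLRL : ATree := (.cutA 5600000 axisTreeRRLLLRLL axisTreeRRLLLRLR)

def axisTreeRRLLLR : ATree := (.cutA 6400000 axisTreeRRLLLRL axisTreeRRLLLRR)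

def axisTreeRRLLL : ATree := (.cutF 252500 axisTreeRRLLLL axisTreeRRLLLR)

def axisTreeRRLLRRLLR : ATree := (.cutA 5400000 axisTreeRRLLRRLLRL axisTreeRRLLRRLLRR)

def axisTreeRRLLRRLL : ATree := (.cutA 5200000 axisTreeRRLLRRLLL axisTreeRRLLRRLLR)

def axisTreeRRLLRRL : ATree := (.cutA 5600000 axisTreeRRLLRRLL axisTreeRRLLRRLR)

def axisTreeRRLLRR : ATree := (.cutA 6400000 axisTreeRRLLRRL axisTreeRRLLRRR)

def axisTreeRRLLR : ATree := (.cutF 252500 axisTreeRRLLRL axisTreeRRLLRR)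

def axisTreeRRLL : ATree := (.cutV 3183099 axisTreeRRLLL axisTreeRRLLR)

def axisTreeRRLRLLLL : ATree := (.cutA 5600000 axisTreeRRLRLLLLL axisTreeRRLRLLLLR)

def axisTreeRRLRLLL : ATree := (.cutF 1182500 axisTreeRRLRLLLL axisTreeRRLRLLLR)

def axisTreeRRLRLL : ATree := (.cutA 6400000 axisTreeRRLRLLL axisTreeRRLRLLR)

def axisTreeRRLRL : ATree := (.cutF 1865000 axisTreeRRLRLL axisTreeRRLRLR)

def axisTreeRRLR : ATree := (.cutV 3183099 axisTreeRRLRL axisTreeRRLRR)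

def axisTreeRRL : ATree := (.cutF 500000 axisTreeRRLL axisTreeRRLR)

def axisTreeRR : ATree := (.cutA 8000000 axisTreeRRL axisTreeRRR)

def axisTreeR : ATree := (.cutA 4800000 axisTreeRL axisTreeRR)

def axisTree : ATree := (.cutF 5000 axisTreeL axisTreeR)

theorem axisTree_ok : axisTree.check 2630000 3230000 0 3230000 2630000 10000000 = true := by
  decide +kernel

end Vale.Agent.P232.Gap.AxisData
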